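import Vale.Agent.P154.Pois.DE.Data.Sl1.Tab0

/-!
# Generations 0 to 4
-/

namespace Vale.P154.PD.Data.Sl1

open Vale.P154.Lat Vale.P154.PD

/-- The start of segment 0. -/
def start0 : Nat × Nat := (889025196515951475387851008143759880918414878053140639930425635730455163535229474922924511108466835694064363395435196813093634048, 529885121819)

/-- A law in segment 0. -/
def mid0_1 : Nat × Nat := (678442634234930639773336359292042992216489490810038558571999432486547335160188937253351540948625035796236246151156092650987741494172585904114371635699175635871135700396704140238058851790222593709307111466929209672832660437966152550823009864888128780838096104125105012933690128590496438753902358010277086102901218046712815739392712269507997733620932289760617189971845169094783472230415252534512865367411709695262169446597022848777297669217049582284059962819001610085030432634480, 396166062395)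

/-- A law in segment 0. -/
def mid0_2 : Nat × Nat := (57099207319530816127582271588106638346736732111168753579343108066654851771980572362312502899109367565289111482477502839345744269309167733746409685681055608236237126686721955486506391742853956106107617887821760430285288362071270520243626520221368427838763469638267712198138218355857348891909467279494943329889380660450838613460131408338349047333806551147727567810509623738808592973276905525545754380062546675711995245653101723502129097927283470071773110485743934418754475709084838742029075412891422478461365886645360458314581534801971369411034665573737197120985654252182193786981974288356775497376032489054554451439313839428041875882335101324059097370070566546104823792995967677766000432065, 318933716041)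

/-- A law in segment 0. -/
def mid0_3 : Nat × Nat := (842441704792309387639672660339896075345429311742463159219399281811888901946384003925627202202265988662023041360123866676358958717826508275424448700106010727213832474692408856033413887666209606118721728933725027769831961042045750378104446466455097900497526028251470796925212327372874857942435457463113515448473095358004423573948260341697055247934556878732837988381528346347499584938205049006930902984285448714726214849436939986231901918326524050019962229495273352133032362428888315720631441652172379538028018507990919533639329396862482190269711237227080134680069683239578544244279131741114322887627917140422541971010466950711984619605253928544851951485674098786166212711556723564496673529898189, 259603741093)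

/-- A law in segment 0. -/
def fin0 : Nat × Nat := (39175495300636648233521304883085854940950965691935198944359524117965139907727064583872408916706736677276373012146791134073112729604915264766624199944404389826959301696309084679646197417694602647241915022364396839087714996894338784352625402799493238998405680815491252658649051868031109099446411681960361919715130659667615957245481547819019225791146584943052065343412828707162768345902843886483028601181542310050534925340453206077770679452397947889328844801147368352290676666443756778822188044863547143683330594165102582884208245359330856015318252262211768707227862065603130316996319153335045350317802748610687463579902264646502726712030108499456510497512681231964481900631801595816696008196991895327263792, 206804441942)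

theorem start_ok : pstartOk par0 start0.1 start0.2 = true := by decide +kernel

theorem step0_0 : pstepOk par0 nodeTab0 edgeTab0 start0.1 start0.2
    mid0_1.1 mid0_1.2 = true := by decide +kernel

theorem step0_1 : pstepOk par0 nodeTab0 edgeTab0 mid0_1.1 mid0_1.2
    mid0_2.1 mid0_2.2 = true := by decide +kernel

theorem step0_2 : pstepOk par0 nodeTab0 edgeTab0 mid0_2.1 mid0_2.2
    mid0_3.1 mid0_3.2 = true := by decide +kernel

theorem step0_3 : pstepOk par0 nodeTab0 edgeTab0 mid0_3.1 mid0_3.2
    fin0.1 fin0.2 = true := by decide +kernel


end Vale.P154.PD.Data.Sl1
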