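import Vale.Agent.P154.Pois.DE.Data.Sl1.Switch0
import Vale.Agent.P154.Pois.DE.Data.Sl1.Tab0
import Vale.Agent.P154.Pois.DE.Data.Sl1.Tab1

/-!
# Change of phase at generation 16
-/

namespace Vale.P154.PD.Data.Sl1

open Vale.P154.Lat Vale.P154.PD

/-- The start of segment 4. -/
def start4 : Nat × Nat := (4417545366150546036038282458267201425623980479724041131970619964918555993207921481999514083216271838319573372403503141968636391711141691506179128555832759111920864014278613380280852377042646385088899723062910869316021333789675084668389741820641391365292774878951925573923545837867781115221797024662640951699165022729598225119845668694820907328509844158185689400558509889586571221104177359424847355247405319505986711221451758021206884717499240064423034697157967026467657024178965253799449131283585537914818650063843707661942019273148519189286310536282999970670841454332484548798724296764449244226525467267364672670659437858663593689510725307625736533243100025570369113424283921565624429173935054725769161834197, 5428818672)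

/-- A law in segment 4. -/
def fin4 : Nat × Nat := (12856753620170130419569282047009489819905145187744841654072793492408827281443737072972922310500764622037903039527332919503434002049590987574971473178340811994346516357218606719937047734316697876459657771750676223918956369147667446264903870414045217874113364762855531385158343207072968937670407202576390931629666722204374141763699610223691752799035638885094568071495203113048498878450465075804879547618678816177745956260751749032655262786865971585584808852470298023918506285605808773454930117814119468483812705040045796134907717032577792031078481355541409602627404401971833536861672278947763574381143007648650038912998317754834495560168713272930992165811173058358315855104207487652204079586048080253294349446245346721242276951144754993347089426193255698575502745074478985058858215225838679336566717032864384390017060845339786817071517934727434320712954270912945577590129283558053747702333951080758606629088750301828517719436424674394056604120757803822173948582366237433294565218867511622056981749589097846849421228341067374449451606690377052739354089142003741945798997484969519147947329637290541184864955346587988011401637738174699648117725095835491143453748474170922888955331128767262152268149412300103434791753474213453737438667078129620407557380515948550422947255140365376972838172329294579774560212900981507163762459011597886156452525318426391214034925637358684978708982486468721835608396720147626887434998572717705119905234780082872717569679024958550494073903225434495336298086762546485039251477170163959663318593032146652980915493755462123675710450160161060470969522834110436835029,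 5428818672)

theorem sw4 : pswOk par0 par1 swTab0 start4.1 start4.2 fin4.1 fin4.2 = true := by
  decide +kernel

end Vale.P154.PD.Data.Sl1
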