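import Vale.Agent.P154.Pois.DE.Comp

/-!
# Change from phase 0
-/

namespace Vale.P154.PD.Data.Sl1

open Vale.P154.Lat Vale.P154.PD

/-- Targets of the classes of phase 0 in phase 1. -/
def swTab0 : List (List (Nat × Nat × Nat)) :=
  [[(0, 0, 1099511627776)],
    [(3, 0, 1041385772351), (6, 0, 57979070361)],
    [(5, 0, 1038501047220), (9, 0, 60861540545)],
    [(10, 0, 983114504727), (15, 0, 116120087195)],
    [(12, 0, 980391195849), (18, 0, 60692949020), (17, 0, 58140123334)],
    [(14, 0, 977675430764), (20, 0, 121555424888)],
    [(21, 0, 924696522977), (28, 0, 174424396348)],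
    [(23, 0, 922135036764), (30, 0, 60524824507), (29, 0, 116442642993)],
    [(25, 0, 919580646080), (32, 0, 121218706259), (31, 0, 58301623677)],
    [(27, 0, 917033331271), (34, 0, 182083050195)],
    [(35, 0, 861338658399), (41, 0, 120882920369), (40, 0, 116766094779)],
    [(37, 0, 858952678736), (43, 0, 181578665015), (42, 0, 58463572631)],
    [(39, 0, 856573308434), (45, 0, 242445807209)],
    [(46, 0, 800723928137), (51, 0, 181075677023), (50, 0, 117090445042)],
    [(47, 0, 798505856314), (53, 0, 241774212175), (52, 0, 58625971444)],
    [(49, 0, 796293928734), (55, 0, 302645080286)],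
    [(56, 0, 738238748081), (60, 0, 301806728263), (59, 0, 58788821365)],
    [(58, 0, 736193765399), (62, 0, 362682247434)],
    [(63, 0, 678149930025), (67, 0, 361677587469), (66, 0, 58952123646)],
    [(65, 0, 676271398363), (69, 0, 422558680353)],
    [(70, 0, 618237984821), (74, 0, 421388157693), (73, 0, 59115879545)],
    [(72, 0, 616525414226), (76, 0, 482275744475)],
    [(77, 0, 558501501787), (81, 0, 480939800584), (80, 0, 59280090322)],
    [(79, 0, 556954406214), (83, 0, 541834798996)],
    [(84, 0, 498939076847), (88, 0, 540333871575), (87, 0, 59444757239)],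
    [(86, 0, 497556974141), (90, 0, 601237196924)],
    [(91, 0, 439549312487), (95, 0, 599571719924), (94, 0, 59609881565)],
    [(93, 0, 438331724364), (97, 0, 660484285108)],
    [(98, 0, 380330817719), (102, 0, 658654688750), (101, 0, 59775464570)],
    [(100, 0, 379277269748), (104, 0, 719577404280)],
    [(105, 0, 321282208041), (109, 0, 717584115072), (108, 0, 59941507527)],
    [(107, 0, 320392229625), (111, 0, 778517889092)],
    [(112, 0, 262402105395), (115, 0, 776361329843)],
    [(114, 0, 261675229756), (117, 0, 837307068154)],
    [(118, 0, 1028745981875)],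
    [(119, 0, 1011716405615)],
    [(118, 0, 865017526800)],
    [(119, 0, 819490288548)],
    [(118, 0, 700664196708)],
    [(119, 0, 663787133724)],
    [(118, 0, 567537999334)],
    [(119, 0, 537667578316)],
    [(118, 0, 459705779460)],
    [(119, 0, 435510738436)],
    [(118, 0, 372361681363)],
    [(119, 0, 352763698133)],
    [(118, 0, 301612961904)],
    [(119, 0, 285738595488)],
    [(118, 0, 244306499142)],
    [(119, 0, 231448262345)],
    [(119, 0, 187473092499)],
    [(119, 0, 151853204924)],
    [(119, 0, 123001095989)],
    [(119, 0, 99630887751)]]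

end Vale.P154.PD.Data.Sl1
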